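import Mathlib

/-!
Integration by parts on the unit cube for periodic functions: the integral over the unit cube of a
continuous partial derivative of a periodic function is zero.
-/

open MeasureTheory Set

namespace Vale.Agent.P113.H109

/-- The integral over the unit cube of the `i`-th partial derivative of a function that is
periodic in the `i`-th variable vanishes. -/
theorem integral_partial_eq_zero (i : Fin 3) (G G' : (Fin 3 → ℝ) → ℝ)
    (hper : ∀ x, G (x + Pi.single i 1) = G x)
    (hd : ∀ x, HasDerivAt (fun s => G (Function.update x i s)) (G' x) (x i))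
    (hc : Continuous G') : ∫ x in Icc (0 : Fin 3 → ℝ) 1, G' x = 0 := by
  have hmp := volume_preserving_piFinSuccAbove (fun _ : Fin 3 => ℝ) i
  set e := MeasurableEquiv.piFinSuccAbove (fun _ : Fin 3 => ℝ) i with he
  have hmp' : MeasurePreserving e.symm := hmp.symm
  have hpre : e.symm ⁻¹' (Icc (0 : Fin 3 → ℝ) 1) = (Icc (0:ℝ) 1) ×ˢ (Icc (0 : Fin 2 → ℝ) 1) := by
    ext ⟨s, y⟩
    have hes : e.symm (s, y) = i.insertNth s y := rfl
    simp only [mem_preimage, hes, mem_prod, mem_Icc, Pi.le_def]
    constructor
    · rintro ⟨h0, h1⟩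
      refine ⟨⟨by simpa using h0 i, by simpa using h1 i⟩, fun j => ?_, fun j => ?_⟩
      · simpa using h0 (i.succAbove j)
      · simpa using h1 (i.succAbove j)
    · rintro ⟨⟨h0, h1⟩, h2, h3⟩
      constructor
      · rw [Fin.forall_iff_succAbove i]
        exact ⟨by simpa using h0, fun j => by simpa using h2 j⟩
      · rw [Fin.forall_iff_succAbove i]
        exact ⟨by simpa using h1, fun j => by simpa using h3 j⟩
  rw [← hmp'.setIntegral_preimage_emb e.symm.measurableEmbedding, hpre]
  have hcont : Continuous (fun z : ℝ × (Fin 2 → ℝ) => G' (i.insertNth z.1 z.2)) := by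
    refine hc.comp ?_
    refine continuous_pi fun j => ?_
    rcases Fin.eq_self_or_eq_succAbove i j with rfl | ⟨k, rfl⟩
    · simpa using continuous_fst
    · simp only [Fin.insertNth_apply_succAbove]
      exact (continuous_apply k).comp continuous_snd
  have hswap : ∫ z in (Icc (0:ℝ) 1) ×ˢ (Icc (0 : Fin 2 → ℝ) 1), G' (e.symm z) =
      ∫ y in Icc (0 : Fin 2 → ℝ) 1, ∫ s in Icc (0:ℝ) 1, G' (i.insertNth s y) := by
    have h1 := setIntegral_prod_swap (μ := (volume : Measure ℝ))
      (ν := (volume : Measure (Fin 2 → ℝ))) (Icc (0:ℝ) 1) (Icc (0 : Fin 2 → ℝ) 1)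
      (fun z : ℝ × (Fin 2 → ℝ) => G' (i.insertNth z.1 z.2))
    rw [setIntegral_prod] at h1
    · exact h1.symm
    · apply ContinuousOn.integrableOn_compact
      · exact isCompact_Icc.prod isCompact_Icc
      · have := hcont.comp (continuous_swap (X := Fin 2 → ℝ) (Y := ℝ))
        exact this.continuousOn
  rw [hswap]
  have hinner : ∀ y : Fin 2 → ℝ, ∫ s in Icc (0:ℝ) 1, G' (i.insertNth s y) = 0 := by
    intro y
    rw [integral_Icc_eq_integral_Ioc, ← intervalIntegral.integral_of_le zero_le_one]
    have hder : ∀ s ∈ uIcc (0:ℝ) 1, HasDerivAt (fun r => G (i.insertNth r y))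
        (G' (i.insertNth s y)) s := by
      intro s _
      have := hd (i.insertNth s y)
      simpa [Fin.update_insertNth] using this
    rw [intervalIntegral.integral_eq_sub_of_hasDerivAt hder]
    · have h2 : (i.insertNth (1:ℝ) y : Fin 3 → ℝ) = (i.insertNth (0:ℝ) y : Fin 3 → ℝ) + Pi.single i 1 := by
        ext j
        rcases Fin.eq_self_or_eq_succAbove i j with rfl | ⟨k, rfl⟩
        · simp
        · simp [Fin.succAbove_ne]
      rw [h2, hper]
      simp
    · apply Continuous.intervalIntegrable
      exact hcont.comp (Continuous.prodMk continuous_id continuous_const)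
  simp [hinner]

end Vale.Agent.P113.H109
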