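import Mathlib

/-!
Real arithmetic of the six linear shears.
-/

namespace Vale.Agent.P113.H109

/-- The identities of the linear part. -/
theorem lin_identities (K p x' y z1 : ℝ) (hK : 0 < K) (hp : 0 < p) :
    (x' / K ^ 2 - p / K ^ 2 * z1) + p * (z1 / K ^ 2 + (K ^ 2 - 1) / p * (x' / K ^ 2)) = x' ∧
    z1 + (K ^ 2 - 1) / p * (x' / K ^ 2 - p / K ^ 2 * z1) =
      z1 / K ^ 2 + (K ^ 2 - 1) / p * (x' / K ^ 2) ∧
    (∀ z2 : ℝ, z2 + (1 / K - 1) * (y - K * z2) = K * z2 + (1 / K - 1) * y) ∧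
    (∀ z2 : ℝ, (y - K * z2) + (K * z2 + (1 / K - 1) * y) = y / K) := by
  refine ⟨?_, ?_, ?_, ?_⟩
  · field_simp
    ring
  · field_simp
    ring
  · intro z2
    field_simp
    ring
  · intro z2
    field_simp
    ring

theorem bd_z1 {e z h : ℝ} (hele : e ≤ 1 / 32) (hz : |z| ≤ e) (hh0 : 0 ≤ h) (hh1 : h ≤ 1 / 8) :
    |z + h| ≤ 1 / 4 := by
  rw [abs_le] at hz ⊢
  constructor <;> linarith

theorem bd_xi {K D x' : ℝ} (hK : 1000 ≤ K) (hx'le : x' ≤ 2 * D / K) (hx' : 0 ≤ x')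
    (hDK : 2 * D / K ≤ 1 / 500) :
    x' / K ^ 2 ≤ 2 * D / K ^ 3 ∧ 0 ≤ x' / K ^ 2 ∧ x' / K ^ 2 ≤ 1 / 500 := by
  have hKpos : 0 < K := by linarith
  refine ⟨?_, by positivity, ?_⟩
  · rw [div_le_iff₀ (by positivity)]
    have : 2 * D / K ^ 3 * K ^ 2 = 2 * D / K := by field_simp
    rw [this]; exact hx'le
  · refine le_trans ?_ hDK
    refine le_trans ?_ hx'le
    apply div_le_self hx'
    nlinarith

theorem bd_pK {K p : ℝ} (hK : 1000 ≤ K) (hp : 0 < p) (hpK : p ≤ K) :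
    0 < p / K ^ 2 ∧ p / K ^ 2 ≤ 1 / 1000 := by
  have hKpos : 0 < K := by linarith
  refine ⟨by positivity, ?_⟩
  rw [div_le_iff₀ (by positivity)]
  have : 1000 * K ≤ K ^ 2 := by nlinarith
  linarith

theorem bd_x1 {a xi z1 : ℝ} (h0 : 0 ≤ xi) (h1 : xi ≤ 1 / 500) (ha : 0 < a) (ha' : a ≤ 1 / 1000)
    (hz1 : |z1| ≤ 1 / 4) : |xi - a * z1| ≤ 1 / 100 := by
  have h2 : |a * z1| ≤ 1 / 1000 * (1 / 4) := by
    rw [abs_mul, abs_of_pos ha]
    exact mul_le_mul ha' hz1 (abs_nonneg _) (by norm_num)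
  rw [abs_le] at h2 ⊢
  constructor <;> linarith [h2.1, h2.2]

theorem bd_q {K p D e xi : ℝ} (hK : 1000 ≤ K) (hp : 0 < p) (hp6 : p * e = 6 * D)
    (hxi0 : 0 ≤ xi) (hxiD : xi ≤ 2 * D / K ^ 3) :
    0 ≤ (K ^ 2 - 1) / p * xi ∧ (K ^ 2 - 1) / p * xi ≤ e / (3 * K) := by
  have hKpos : 0 < K := by linarith
  have hK2 : 0 ≤ K ^ 2 - 1 := by nlinarith
  refine ⟨by positivity, ?_⟩
  have h1 : (K ^ 2 - 1) / p * xi ≤ K ^ 2 / p * (2 * D / K ^ 3) := by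
    apply mul_le_mul _ hxiD hxi0 (by positivity)
    apply div_le_div_of_nonneg_right _ hp.le
    linarith
  have h2 : K ^ 2 / p * (2 * D / K ^ 3) = e / (3 * K) := by
    have hpe : e = 6 * D / p := by field_simp; linarith
    rw [hpe]
    field_simp
    ring
  linarith

theorem bd_z1K {K z1 : ℝ} (hK : 0 < K) (hz1 : |z1| ≤ 1 / 4) : |z1 / K ^ 2| ≤ 1 / (4 * K ^ 2) := by
  have hK2 : 0 < K ^ 2 := by positivity
  rw [abs_div, abs_of_pos hK2, div_le_div_iff₀ hK2 (by positivity)]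
  have := mul_le_mul_of_nonneg_right hz1 (by positivity : 0 ≤ 4 * K ^ 2)
  linarith

theorem bd_Kz2 {K e z1 g : ℝ} (hK : 0 < K) (hz1 : |z1| ≤ 1 / 4) (hg0 : 0 ≤ g)
    (hg : g ≤ e / (3 * K)) : |K * (z1 / K ^ 2 + g)| ≤ 1 / (4 * K) + e / 3 := by
  have h1 : K * (z1 / K ^ 2 + g) = K * (z1 / K ^ 2) + K * g := by ring
  rw [h1]
  refine (abs_add_le _ _).trans (add_le_add ?_ ?_)
  · rw [abs_mul, abs_of_pos hK]
    calc K * |z1 / K ^ 2| ≤ K * (1 / (4 * K ^ 2)) := by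
          exact mul_le_mul_of_nonneg_left (bd_z1K hK hz1) hK.le
      _ = 1 / (4 * K) := by field_simp
  · rw [abs_mul, abs_of_pos hK, abs_of_nonneg hg0]
    calc K * g ≤ K * (e / (3 * K)) := mul_le_mul_of_nonneg_left hg hK.le
      _ = e / 3 := by field_simp

/-- All bounds of the linear part. -/
theorem lin_bounds (K e p D x' y z h : ℝ) (hK : 1000 ≤ K) (he : 0 < e) (hele : e ≤ 1 / 32)
    (heK : 1 / K ≤ e / 30) (hp : 0 < p) (hpK : p ≤ K) (hp6 : p * e = 6 * D)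
    (hx' : 0 ≤ x') (hDK : 2 * D / K ≤ 1 / 500) (hx'le : x' ≤ 2 * D / K) (hy : 0 < y)
    (hyle : y ≤ 1 / K) (hz : |z| ≤ e) (hh0 : 0 ≤ h) (hh1 : h ≤ 1 / 8) :
    |z + h| ≤ 1 / 4 ∧ |x' / K ^ 2| ≤ 1 / 500 ∧ |x' / K ^ 2 - p / K ^ 2 * (z + h)| ≤ 1 / 100 ∧
    |(z + h) / K ^ 2 + (K ^ 2 - 1) / p * (x' / K ^ 2)| ≤ 1 / 50 ∧
    |y - K * ((z + h) / K ^ 2 + (K ^ 2 - 1) / p * (x' / K ^ 2))| ≤ 3 / 8 ∧
    |K * ((z + h) / K ^ 2 + (K ^ 2 - 1) / p * (x' / K ^ 2)) + (1 / K - 1) * y| ≤ e := by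
  have hKpos : 0 < K := by linarith
  have h1 := bd_z1 hele hz hh0 hh1
  obtain ⟨h2, h3, h4⟩ := bd_xi hK hx'le hx' hDK
  obtain ⟨h5, h6⟩ := bd_pK hK hp hpK
  have h7 := bd_x1 h3 h4 h5 h6 h1
  obtain ⟨h8, h9⟩ := bd_q hK hp hp6 h3 h2
  have h10 := bd_Kz2 hKpos h1 h8 h9
  have h4K : 1 / (4 * K) ≤ e / 120 := by
    have : 1 / (4 * K) = (1 / K) / 4 := by field_simp
    rw [this]; linarith
  have hK1 : 1 / K ≤ 1 / 1000 := one_div_le_one_div_of_le (by norm_num) hK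
  have hK0 : 0 < 1 / K := by positivity
  set z2 := (z + h) / K ^ 2 + (K ^ 2 - 1) / p * (x' / K ^ 2) with hz2
  have h11 : |K * z2| ≤ 1 / 50 := by linarith
  have h12 : |z2| ≤ 1 / 50 := by
    have : |K * z2| = K * |z2| := by rw [abs_mul, abs_of_pos hKpos]
    rw [this] at h11
    have h0 := abs_nonneg z2
    have : 1 * |z2| ≤ K * |z2| := mul_le_mul_of_nonneg_right (by linarith) h0
    linarith
  refine ⟨h1, by rw [abs_of_nonneg h3]; exact h4, h7, h12, ?_, ?_⟩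
  · refine (abs_sub _ _).trans ?_
    rw [abs_of_pos hy]
    linarith
  · refine (abs_add_le _ _).trans ?_
    have hm : |(1 / K - 1) * y| = |1 / K - 1| * y := by rw [abs_mul, abs_of_pos hy]
    rw [hm]
    have hc1 : |(1:ℝ) / K - 1| ≤ 1 := by
      rw [abs_le]
      constructor <;> linarith
    have : |1 / K - 1| * y ≤ 1 * y := mul_le_mul_of_nonneg_right hc1 hy.le
    linarith

end Vale.Agent.P113.H109
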