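import Vale.Agent.P113.H109.Planar3
import Vale.Agent.P113.H109.PlanarReal

/-!
Planar tracking, fourth part: the whole orbit.
-/

namespace Vale.Agent.P113.H109

/-- The orbit of a point under the eight shears applied cyclically. -/
def orb (o : Fin 8 → ROp) (Y0 : Fin 3 → ℝ) : ℕ → (Fin 3 → ℝ)
  | 0 => Y0
  | m + 1 => (o ⟨m % 8, Nat.mod_lt _ (by norm_num)⟩).ap (orb o Y0 m)

theorem orb_step (o : Fin 8 → ROp) (Y0 : Fin 3 → ℝ) (n : ℕ) (k : Fin 8) :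
    orb o Y0 (8 * n + k.val + 1) = (o k).ap (orb o Y0 (8 * n + k.val)) := by
  have : (8 * n + k.val) % 8 = k.val := by omega
  show (o ⟨(8 * n + k.val) % 8, _⟩).ap (orb o Y0 (8 * n + k.val)) = _
  congr 2
  exact Fin.ext this

theorem ap0 (o : ROp) (h : o.dir = 0) (x y z : ℝ) :
    o.ap ![x, y, z] = ![x + o.V ![x, y, z], y, z] := by
  unfold ROp.ap
  rw [h]
  ext i; fin_cases i <;> simp

theorem ap1 (o : ROp) (h : o.dir = 1) (x y z : ℝ) :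
    o.ap ![x, y, z] = ![x, y + o.V ![x, y, z], z] := by
  unfold ROp.ap
  rw [h]
  ext i; fin_cases i <;> simp

theorem ap2 (o : ROp) (h : o.dir = 2) (x y z : ℝ) :
    o.ap ![x, y, z] = ![x, y, z + o.V ![x, y, z]] := by
  unfold ROp.ap
  rw [h]
  ext i; fin_cases i <;> simp

/-- the box in which a non-halting orbit stays -/
def inBox (X : Fin 3 → ℝ) : Prop := ∀ i, |X i| ≤ 3 / 8

theorem inBox_mk {x y z : ℝ} (hx : |x| ≤ 3 / 8) (hy : |y| ≤ 3 / 8) (hz : |z| ≤ 3 / 8) :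
    inBox ![x, y, z] := by
  intro i; fin_cases i <;> simpa

/-- Purely formal part of a period: the eight shears with known values. -/
theorem formal_period (o : Fin 8 → ROp) (Y0 : Fin 3 → ℝ) (n : ℕ)
    (d0 : (o 0).dir = 2) (d1 : (o 1).dir = 0) (d2 : (o 2).dir = 0) (d3 : (o 3).dir = 2)
    (d4 : (o 4).dir = 0) (d5 : (o 5).dir = 1) (d6 : (o 6).dir = 2) (d7 : (o 7).dir = 1)
    (x y z z1 xi x1 z2 x' y1 z3 y' : ℝ)
    (h0 : orb o Y0 (8 * n) = ![x, y, z])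
    (v0 : z + (o 0).V ![x, y, z] = z1)
    (v1 : x + (o 1).V ![x, y, z1] = xi)
    (v2 : xi + (o 2).V ![xi, y, z1] = x1)
    (v3 : z1 + (o 3).V ![x1, y, z1] = z2)
    (v4 : x1 + (o 4).V ![x1, y, z2] = x')
    (v5 : y + (o 5).V ![x', y, z2] = y1)
    (v6 : z2 + (o 6).V ![x', y1, z2] = z3)
    (v7 : y1 + (o 7).V ![x', y1, z3] = y')
    (bx : |x| ≤ 3 / 8) (by' : |y| ≤ 3 / 8) (bz : |z| ≤ 3 / 8) (bz1 : |z1| ≤ 3 / 8)
    (bxi : |xi| ≤ 3 / 8) (bx1 : |x1| ≤ 3 / 8) (bz2 : |z2| ≤ 3 / 8) (bx' : |x'| ≤ 3 / 8)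
    (by1 : |y1| ≤ 3 / 8) (bz3 : |z3| ≤ 3 / 8) (by2 : |y'| ≤ 3 / 8) :
    (∀ k ≤ 8, inBox (orb o Y0 (8 * n + k))) ∧ orb o Y0 (8 * (n + 1)) = ![x', y', z3] := by
  have hY1 : orb o Y0 (8 * n + 1) = ![x, y, z1] := by
    have h := orb_step o Y0 n 0
    simp only [Fin.val_zero, add_zero] at h
    rw [h, h0, ap2 _ d0, v0]
  have hY2 : orb o Y0 (8 * n + 2) = ![xi, y, z1] := by
    have h : orb o Y0 (8 * n + 2) = (o 1).ap (orb o Y0 (8 * n + 1)) := orb_step o Y0 n 1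
    rw [h, hY1, ap0 _ d1, v1]
  have hY3 : orb o Y0 (8 * n + 3) = ![x1, y, z1] := by
    have h : orb o Y0 (8 * n + 3) = (o 2).ap (orb o Y0 (8 * n + 2)) := orb_step o Y0 n 2
    rw [h, hY2, ap0 _ d2, v2]
  have hY4 : orb o Y0 (8 * n + 4) = ![x1, y, z2] := by
    have h : orb o Y0 (8 * n + 4) = (o 3).ap (orb o Y0 (8 * n + 3)) := orb_step o Y0 n 3
    rw [h, hY3, ap2 _ d3, v3]
  have hY5 : orb o Y0 (8 * n + 5) = ![x', y, z2] := by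
    have h : orb o Y0 (8 * n + 5) = (o 4).ap (orb o Y0 (8 * n + 4)) := orb_step o Y0 n 4
    rw [h, hY4, ap0 _ d4, v4]
  have hY6 : orb o Y0 (8 * n + 6) = ![x', y1, z2] := by
    have h : orb o Y0 (8 * n + 6) = (o 5).ap (orb o Y0 (8 * n + 5)) := orb_step o Y0 n 5
    rw [h, hY5, ap1 _ d5, v5]
  have hY7 : orb o Y0 (8 * n + 7) = ![x', y1, z3] := by
    have h : orb o Y0 (8 * n + 7) = (o 6).ap (orb o Y0 (8 * n + 6)) := orb_step o Y0 n 6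
    rw [h, hY6, ap2 _ d6, v6]
  have hY8 : orb o Y0 (8 * n + 8) = ![x', y', z3] := by
    have h : orb o Y0 (8 * n + 8) = (o 7).ap (orb o Y0 (8 * n + 7)) := orb_step o Y0 n 7
    rw [h, hY7, ap1 _ d7, v7]
  constructor
  · intro k hk
    interval_cases k
    · rw [add_zero, h0]; exact inBox_mk bx by' bz
    · rw [hY1]; exact inBox_mk bx by' bz1
    · rw [hY2]; exact inBox_mk bxi by' bz1
    · rw [hY3]; exact inBox_mk bx1 by' bz1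
    · rw [hY4]; exact inBox_mk bx1 by' bz2
    · rw [hY5]; exact inBox_mk bx' by' bz2
    · rw [hY6]; exact inBox_mk bx' by1 bz2
    · rw [hY7]; exact inBox_mk bx' by1 bz3
    · rw [hY8]; exact inBox_mk bx' by2 bz3
  · exact hY8

theorem cast_le' {a b : ℚ} (h : a ≤ b) : (a : ℝ) ≤ (b : ℝ) := by exact_mod_cast h

namespace Enc

variable {S A : Type} [Fintype S] [Fintype A] (E : Enc S A)

variable {B : ℚ → ℚ → ℝ → ℝ} {Lin : ℝ → ℝ}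

theorem next_length {S A : Type} (M : UQ S A) (c : S × List A) (hc : 2 ≤ c.2.length) :
    2 ≤ (M.next c).2.length := by
  obtain ⟨s, q⟩ := c
  match q, hc with
  | a :: b :: q, _ => simp [UQ.next]

/-- the machine step as an identity between real numbers -/
theorem id_real (M : UQ S A) (s : S) (a b : A) (q : List A) :
    ((E.x (s, a :: b :: q) : ℚ) : ℝ) + ((E.dd M (s, a, b) : ℚ) + (E.ee M (s, a, b) : ℚ) *
      ((E.y (s, a :: b :: q) : ℚ) : ℝ)) =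
      ((E.x (M.next (s, a :: b :: q)) : ℚ) : ℝ) / (E.K : ℝ) ^ 2 := by
  have hK := E.K_pos
  have h0 := step_identity hK E.dS E.dA s (M.step3 s a b).1 a b q
    (M.step3 s a b).2.1 (M.step3 s a b).2.2.1 (M.step3 s a b).2.2.2
  have h1 : E.x (s, a :: b :: q) + (E.dd M (s, a, b) + E.ee M (s, a, b) * E.y (s, a :: b :: q)) =
      E.x (M.next (s, a :: b :: q)) / (E.K : ℚ) ^ 2 := by
    rw [eq_div_iff (by positivity)]
    show (vl E.K E.dS E.dA s (a :: b :: q) + _) * (E.K:ℚ) ^ 2 = vl E.K E.dS E.dA _ _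
    unfold dd ee Enc.y UQ.next
    simp only
    rw [← h0]
    ring
  have h2 : ((E.x (s, a :: b :: q) + (E.dd M (s, a, b) + E.ee M (s, a, b) * E.y (s, a :: b :: q)) : ℚ) : ℝ)
      = ((E.x (M.next (s, a :: b :: q)) / (E.K : ℚ) ^ 2 : ℚ) : ℝ) := by rw [h1]
  push_cast at h2
  exact h2

theorem y_next (M : UQ S A) (s : S) (a b : A) (q : List A) :
    ((E.y (M.next (s, a :: b :: q)) : ℚ) : ℝ) = ((E.y (s, a :: b :: q) : ℚ) : ℝ) / (E.K : ℝ) := by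
  have h0 := sc_step E.K_pos a b q (M.step3 s a b).2.1 (M.step3 s a b).2.2.1 (M.step3 s a b).2.2.2
  have h1 : E.y (M.next (s, a :: b :: q)) = E.y (s, a :: b :: q) / E.K := h0.symm
  rw [h1]
  push_cast
  rfl

/-- One period: an encoded configuration is mapped to the encoded next configuration. -/
theorem period (M : UQ S A) (P : Prof B Lin) (c : S × List A) (hc : 2 ≤ c.2.length)
    (hh : M.halts c.1 = false) (Y0 : Fin 3 → ℝ) (n : ℕ) (z : ℝ) (hz : |z| ≤ (E.eps : ℚ))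
    (hY : orb (E.ops M B Lin) Y0 (8 * n) = ![((E.x c : ℚ) : ℝ), ((E.y c : ℚ) : ℝ), z]) :
    (∀ k ≤ 8, inBox (orb (E.ops M B Lin) Y0 (8 * n + k))) ∧
    ∃ z' : ℝ, |z'| ≤ (E.eps : ℚ) ∧ orb (E.ops M B Lin) Y0 (8 * (n + 1)) =
      ![((E.x (M.next c) : ℚ) : ℝ), ((E.y (M.next c) : ℚ) : ℝ), z'] := by
  obtain ⟨s, q0⟩ := c
  match q0, hc with
  | a :: b :: q, hc =>
  have hid := E.id_real M s a b q
  have hyn := E.y_next M s a b q
  have hK1000 : (1000:ℝ) ≤ (E.K : ℝ) := by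
    have := cast_le' E.K_ge
    push_cast at this; exact this
  have hKpos : (0:ℝ) < (E.K:ℝ) := by linarith
  have hepos : (0:ℝ) < ((E.eps : ℚ) : ℝ) := by exact_mod_cast E.eps_pos
  have hele : ((E.eps : ℚ) : ℝ) ≤ 1 / 32 := by
    have := cast_le' E.eps_le
    push_cast at this; exact this
  have heK : 1 / (E.K : ℝ) ≤ ((E.eps : ℚ) : ℝ) / 30 := by
    have := cast_le' E.eps_K
    push_cast at this; exact this
  have hppos : (0:ℝ) < ((E.p : ℚ) : ℝ) := by exact_mod_cast E.p_pos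
  have hpK : ((E.p : ℚ) : ℝ) ≤ (E.K : ℝ) := by
    have := cast_le' E.p_le
    push_cast at this; exact this
  have hp6 : ((E.p : ℚ) : ℝ) * ((E.eps : ℚ) : ℝ) = 6 * (E.D : ℝ) := by
    have h0 : E.p * E.eps = 6 * E.D := by
      unfold Enc.p
      have := E.eps_pos
      field_simp
    have : ((E.p * E.eps : ℚ) : ℝ) = ((6 * E.D : ℚ) : ℝ) := by rw [h0]
    push_cast at this
    exact this
  have hxpos : (0:ℝ) ≤ ((E.x (s, a :: b :: q) : ℚ) : ℝ) := by exact_mod_cast E.x_nonneg _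
  have hx'pos : (0:ℝ) ≤ ((E.x (M.next (s, a :: b :: q)) : ℚ) : ℝ) := by
    exact_mod_cast E.x_nonneg _
  have hDK : 2 * (E.D : ℝ) / (E.K : ℝ) ≤ 1 / 500 := by
    have := cast_le' E.D_div_K
    push_cast at this; exact this
  have hxle : ((E.x (s, a :: b :: q) : ℚ) : ℝ) ≤ 2 * (E.D : ℝ) / (E.K : ℝ) := by
    have := cast_le' (E.x_le (s, a :: b :: q))
    push_cast at this; exact this
  have hx'le : ((E.x (M.next (s, a :: b :: q)) : ℚ) : ℝ) ≤ 2 * (E.D : ℝ) / (E.K : ℝ) := by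
    have := cast_le' (E.x_le (M.next (s, a :: b :: q)))
    push_cast at this; exact this
  have hypos : (0:ℝ) < ((E.y (s, a :: b :: q) : ℚ) : ℝ) := by exact_mod_cast E.y_pos _
  have hyle : ((E.y (s, a :: b :: q) : ℚ) : ℝ) ≤ 1 / (E.K : ℝ) ^ 3 := by
    have := cast_le' (E.y_le (s, a :: b :: q) hc)
    push_cast at this; exact this
  have hyle2 : ((E.y (s, a :: b :: q) : ℚ) : ℝ) ≤ 1 / (E.K : ℝ) := by
    refine hyle.trans (one_div_le_one_div_of_le hKpos ?_)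
    calc (E.K:ℝ) = (E.K:ℝ) ^ 1 := (pow_one _).symm
      _ ≤ (E.K:ℝ) ^ 3 := pow_le_pow_right₀ (by linarith) (by norm_num)
  have hh0 : (0:ℝ) ≤ ((E.h (s, a, b) : ℚ) : ℝ) := by exact_mod_cast E.h_nonneg _
  have hh1 : ((E.h (s, a, b) : ℚ) : ℝ) ≤ 1 / 8 := by
    have := cast_le' (E.h_le (s, a, b))
    push_cast at this; exact this
  have hrp : ((E.r : ℚ) : ℝ) = ((E.K : ℝ) ^ 2 - 1) / ((E.p : ℚ) : ℝ) := by
    unfold Enc.r; push_cast; rfl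
  have hwt : E.wt M (s, a, b) = E.h (s, a, b) := by
    unfold wt
    simp only
    simp only at hh
    rw [hh]
    simp
  obtain ⟨i1, i2, i3, i4⟩ := lin_identities (E.K : ℝ) ((E.p : ℚ) : ℝ)
    ((E.x (M.next (s, a :: b :: q)) : ℚ) : ℝ) ((E.y (s, a :: b :: q) : ℚ) : ℝ)
    (z + ((E.h (s, a, b) : ℚ) : ℝ)) hKpos hppos
  obtain ⟨b1, b2, b3, b4, b5, b6⟩ := lin_bounds (E.K : ℝ) ((E.eps : ℚ) : ℝ) ((E.p : ℚ) : ℝ)
    (E.D : ℝ) ((E.x (M.next (s, a :: b :: q)) : ℚ) : ℝ) ((E.y (s, a :: b :: q) : ℚ) : ℝ) z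
    ((E.h (s, a, b) : ℚ) : ℝ) hK1000 hepos hele heK hppos hpK hp6 hx'pos hDK hx'le hypos hyle2 hz
    hh0 hh1
  have hK1 : 1 / (E.K:ℝ) ≤ 1 / 1000 := one_div_le_one_div_of_le (by norm_num) hK1000
  have hyle3 : |((E.y (s, a :: b :: q) : ℚ) : ℝ)| ≤ 3 / 8 := by
    rw [abs_of_pos hypos]; linarith
  have hyle4 : |((E.y (M.next (s, a :: b :: q)) : ℚ) : ℝ)| ≤ 3 / 8 := by
    rw [hyn, abs_of_pos (by positivity)]
    have : ((E.y (s, a :: b :: q) : ℚ) : ℝ) / (E.K : ℝ) ≤ ((E.y (s, a :: b :: q) : ℚ) : ℝ) :=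
      div_le_self hypos.le (by linarith)
    linarith
  have c1 := b1.trans (by norm_num : (1:ℝ) / 4 ≤ 3 / 8)
  have c2 := b2.trans (by norm_num : (1:ℝ) / 500 ≤ 3 / 8)
  have c3 := b3.trans (by norm_num : (1:ℝ) / 100 ≤ 3 / 8)
  have c4 := b4.trans (by norm_num : (1:ℝ) / 50 ≤ 3 / 8)
  have c6 := b6.trans (hele.trans (by norm_num : (1:ℝ) / 32 ≤ 3 / 8))
  have c0 : |z| ≤ 3 / 8 := hz.trans (hele.trans (by norm_num : (1:ℝ) / 32 ≤ 3 / 8))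
  have main := formal_period (E.ops M B Lin) Y0 n rfl rfl rfl rfl rfl rfl rfl rfl
    (x := ((E.x (s, a :: b :: q) : ℚ) : ℝ)) (y := ((E.y (s, a :: b :: q) : ℚ) : ℝ)) (z := z)
    (y' := ((E.y (M.next (s, a :: b :: q)) : ℚ) : ℝ)) (h0 := hY)
    (z1 := z + ((E.h (s, a, b) : ℚ) : ℝ))
    (xi := ((E.x (M.next (s, a :: b :: q)) : ℚ) : ℝ) / (E.K : ℝ) ^ 2)
    (x1 := ((E.x (M.next (s, a :: b :: q)) : ℚ) : ℝ) / (E.K : ℝ) ^ 2 -
      ((E.p : ℚ) : ℝ) / (E.K : ℝ) ^ 2 * (z + ((E.h (s, a, b) : ℚ) : ℝ)))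
    (z2 := (z + ((E.h (s, a, b) : ℚ) : ℝ)) / (E.K : ℝ) ^ 2 +
      ((E.K : ℝ) ^ 2 - 1) / ((E.p : ℚ) : ℝ) *
        (((E.x (M.next (s, a :: b :: q)) : ℚ) : ℝ) / (E.K : ℝ) ^ 2))
    (x' := ((E.x (M.next (s, a :: b :: q)) : ℚ) : ℝ))
    (y1 := ((E.y (s, a :: b :: q) : ℚ) : ℝ) - (E.K : ℝ) *
      ((z + ((E.h (s, a, b) : ℚ) : ℝ)) / (E.K : ℝ) ^ 2 +
      ((E.K : ℝ) ^ 2 - 1) / ((E.p : ℚ) : ℝ) *
        (((E.x (M.next (s, a :: b :: q)) : ℚ) : ℝ) / (E.K : ℝ) ^ 2)))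
    (z3 := (E.K : ℝ) *
      ((z + ((E.h (s, a, b) : ℚ) : ℝ)) / (E.K : ℝ) ^ 2 +
      ((E.K : ℝ) ^ 2 - 1) / ((E.p : ℚ) : ℝ) *
        (((E.x (M.next (s, a :: b :: q)) : ℚ) : ℝ) / (E.K : ℝ) ^ 2)) + (1 / (E.K : ℝ) - 1) *
        ((E.y (s, a :: b :: q) : ℚ) : ℝ))
    (v0 := by rw [E.V0 M P (s, a, b) (s, a :: b :: q) q rfl _ rfl, hwt])
    (v1 := by
      rw [E.V1 M P (s, a, b) _ (by simpa using hyle3) (by simpa using hz)]
      exact hid)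
    (v2 := by
      show _ + ((-(E.p / (E.K:ℚ) ^ 2) : ℚ) : ℝ) * Lin (z + ((E.h (s, a, b) : ℚ) : ℝ)) = _
      rw [P.lin _ c1]
      push_cast
      ring)
    (v3 := by
      show _ + (E.r : ℝ) * Lin (((E.x (M.next (s, a :: b :: q)) : ℚ) : ℝ) / (E.K : ℝ) ^ 2 -
        ((E.p : ℚ) : ℝ) / (E.K : ℝ) ^ 2 * (z + ((E.h (s, a, b) : ℚ) : ℝ))) = _
      rw [P.lin _ c3, hrp]
      exact i2)
    (v4 := by
      show _ + (E.p : ℝ) * Lin ((z + ((E.h (s, a, b) : ℚ) : ℝ)) / (E.K : ℝ) ^ 2 +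
        ((E.K : ℝ) ^ 2 - 1) / ((E.p : ℚ) : ℝ) *
          (((E.x (M.next (s, a :: b :: q)) : ℚ) : ℝ) / (E.K : ℝ) ^ 2)) = _
      rw [P.lin _ c4]
      exact i1)
    (v5 := by
      show _ + ((-(E.K:ℚ) : ℚ) : ℝ) * Lin ((z + ((E.h (s, a, b) : ℚ) : ℝ)) / (E.K : ℝ) ^ 2 +
        ((E.K : ℝ) ^ 2 - 1) / ((E.p : ℚ) : ℝ) *
          (((E.x (M.next (s, a :: b :: q)) : ℚ) : ℝ) / (E.K : ℝ) ^ 2)) = _
      rw [P.lin _ c4]
      push_cast
      ring)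
    (v6 := by
      show _ + ((1 / (E.K:ℚ) - 1 : ℚ) : ℝ) * Lin (((E.y (s, a :: b :: q) : ℚ) : ℝ) - (E.K : ℝ) *
        ((z + ((E.h (s, a, b) : ℚ) : ℝ)) / (E.K : ℝ) ^ 2 +
        ((E.K : ℝ) ^ 2 - 1) / ((E.p : ℚ) : ℝ) *
          (((E.x (M.next (s, a :: b :: q)) : ℚ) : ℝ) / (E.K : ℝ) ^ 2))) = _
      rw [P.lin _ b5]
      push_cast
      exact i3 _)
    (v7 := by
      show _ + ((1:ℚ) : ℝ) * Lin ((E.K : ℝ) *
      ((z + ((E.h (s, a, b) : ℚ) : ℝ)) / (E.K : ℝ) ^ 2 +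
      ((E.K : ℝ) ^ 2 - 1) / ((E.p : ℚ) : ℝ) *
        (((E.x (M.next (s, a :: b :: q)) : ℚ) : ℝ) / (E.K : ℝ) ^ 2)) + (1 / (E.K : ℝ) - 1) *
        ((E.y (s, a :: b :: q) : ℚ) : ℝ)) = _
      rw [P.lin _ c6, hyn]
      push_cast
      rw [one_mul]
      exact i4 _)
    (bx := by rw [abs_of_nonneg hxpos]; linarith) (by' := hyle3) (bz := c0) (bz1 := c1)
    (bxi := c2) (bx1 := c3) (bz2 := c4) (bx' := by rw [abs_of_nonneg hx'pos]; linarith)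
    (by1 := b5) (bz3 := c6) (by2 := hyle4)
  exact ⟨main.1, _, b6, main.2⟩

end Enc

end Vale.Agent.P113.H109
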