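import Vale.Agent.P113.Iface
import Vale.Agent.P113.H799.R
import Vale.Agent.P113.H109.Planar4

/-!
Part C: tracking of the uniform queue machine by the eight shears.
-/

open Set

namespace Vale.Agent.P113.H109

/-- code of a rational number -/
def toQ (q : ℚ) : QCode := (q.num, q.den)

theorem qval_toQ (q : ℚ) : qval (toQ q) = (q : ℝ) := by
  unfold qval toQ
  rw [Rat.cast_def]

theorem toQ_den (q : ℚ) : (toQ q).2 ≠ 0 := q.den_ne_zero

/-- the plateau bump around `c` of half width `w` -/
def bcode (c w : ℚ) : BumpCode := .inr (0, (6, 1), toQ (2 / w), toQ (2 * c / w - 3))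

/-- the linear bump -/
def lcode : BumpCode := .inr (1, (14, 1), (16, 1), (-7, 1))

theorem bcode_valid {c w : ℚ} (hw : 0 < w) : BumpCode.Valid (bcode c w) := by
  refine ⟨by norm_num, toQ_den _, toQ_den _, ?_, ?_⟩
  · rw [qval_toQ]
    have : (0:ℝ) < ((2 / w : ℚ) : ℝ) := by exact_mod_cast (by positivity : (0:ℚ) < 2 / w)
    exact this.ne'
  · norm_num [qval]

theorem lcode_valid : BumpCode.Valid lcode := by
  refine ⟨by norm_num, by norm_num, by norm_num, ?_, ?_⟩ <;> norm_num [qval]

/-- the plateau function around `c` of half width `w` -/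
noncomputable def Bf (c w : ℚ) (s : ℝ) : ℝ := kappa⁻¹ * periodize (bump (bcode c w)) s

/-- the linear function near zero -/
noncomputable def Linf (s : ℝ) : ℝ := kappa⁻¹ * periodize (bump lcode) s

theorem bump_bcode (c w : ℚ) (hw : 0 < w) (s : ℝ) :
    bump (bcode c w) s = plateau 6 (2 / w * (s - c) + 3) := by
  have hw' : (w : ℝ) ≠ 0 := by exact_mod_cast hw.ne'
  unfold bcode
  simp only [bump, pow_zero, one_mul, qval_toQ]
  have h6 : qval (6, 1) = 6 := by norm_num [qval]
  rw [h6]
  push_cast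
  congr 1
  field_simp
  ring

theorem bump_lcode (s : ℝ) : bump lcode s = s * plateau 14 (16 * s + 7) := by
  unfold lcode
  simp only [bump, pow_one]
  have h1 : qval (14, 1) = 14 := by norm_num [qval]
  have h2 : qval (16, 1) = 16 := by norm_num [qval]
  have h3 : qval (-7, 1) = -7 := by norm_num [qval]
  rw [h1, h2, h3]
  congr 2
  ring

theorem bcode_supp (c w : ℚ) (hw : 0 < w) (hw8 : w ≤ 1 / 8) (s : ℝ) (hs : 2 * (w:ℝ) ≤ |s - c|) :
    bump (bcode c w) s = 0 := by
  rw [bump_bcode c w hw]
  have hw' : (0:ℝ) < w := by exact_mod_cast hw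
  rcases le_abs.mp hs with h | h
  · apply R.plateau_eq_zero_right (by norm_num)
    have : 4 ≤ 2 / (w:ℝ) * (s - c) := by
      rw [div_mul_eq_mul_div, le_div_iff₀ hw']
      linarith
    linarith
  · apply R.plateau_eq_zero_left (by norm_num)
    have : 4 ≤ 2 / (w:ℝ) * (-(s - c)) := by
      rw [div_mul_eq_mul_div, le_div_iff₀ hw']
      linarith
    linarith

theorem prof : Prof Bf Linf where
  one := by
    intro c w s hw hw8 hs
    have hw' : (0:ℝ) < w := by exact_mod_cast hw
    have hw8' : (w:ℝ) ≤ 1 / 8 := by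
      have : ((w : ℚ) : ℝ) ≤ ((1 / 8 : ℚ) : ℝ) := by exact_mod_cast hw8
      simpa using this
    unfold Bf
    rw [R.periodize_eq_self (c := (c:ℝ))]
    · rw [bump_bcode c w hw, R.plateau_eq_kappa, inv_mul_cancel₀ R.kappa_pos.ne']
      · have : -(2 / (w:ℝ) * (s - c)) ≤ 2 := by
          rw [← mul_neg, div_mul_eq_mul_div, div_le_iff₀ hw']
          have := (abs_le.mp hs).1
          linarith
        linarith
      · have : 2 / (w:ℝ) * (s - c) ≤ 2 := by
          rw [div_mul_eq_mul_div, div_le_iff₀ hw']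
          have := (abs_le.mp hs).2
          linarith
        linarith
    · intro t ht
      exact bcode_supp c w hw hw8 t (by linarith)
    · linarith
  zero := by
    intro c w s hw hw8 hs hs2
    have hw8' : (w:ℝ) ≤ 1 / 8 := by
      have : ((w : ℚ) : ℝ) ≤ ((1 / 8 : ℚ) : ℝ) := by exact_mod_cast hw8
      simpa using this
    unfold Bf
    rw [R.periodize_eq_self (c := (c:ℝ))]
    · rw [bcode_supp c w hw hw8 s hs, mul_zero]
    · intro t ht
      exact bcode_supp c w hw hw8 t (by linarith)
    · exact hs2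
  lin := by
    intro s hs
    unfold Linf
    rw [R.periodize_eq_self (c := (0:ℝ))]
    · rw [bump_lcode, R.plateau_eq_kappa]
      · have := R.kappa_pos.ne'
        field_simp
      · have := (abs_le.mp hs).1
        linarith
      · have := (abs_le.mp hs).2
        linarith
    · intro t ht
      rw [sub_zero] at ht
      rw [bump_lcode]
      rcases le_abs.mp ht with h | h
      · rw [R.plateau_eq_zero_right (by norm_num) (by linarith), mul_zero]
      · rw [R.plateau_eq_zero_left (by norm_num) (by linarith), mul_zero]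
    · rw [sub_zero]; linarith

/-! ### Admissibility -/

theorem adm_code (q : ℚ) (n : ℤ) (h : Fin 3 → List BumpCode)
    (hv : ∀ i, ∀ g ∈ h i, BumpCode.Valid g) (V : E → ℝ)
    (hV : ∀ x, V x = q * kappa ^ n * ∏ i, ((h i).map fun g => periodize (bump g) (x i)).prod) :
    Adm V := by
  refine ⟨[(toQ q, n, h)], ?_, ?_⟩
  · intro τ hτ
    rw [List.mem_singleton] at hτ
    subst hτ
    exact ⟨toQ_den q, hv⟩
  · intro x
    rw [hV x]
    simp [sVal, qval_toQ]

theorem adm_zero : Adm (fun _ => 0) := ⟨[], by simp, by simp⟩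

theorem adm_add {V W : E → ℝ} (hV : Adm V) (hW : Adm W) : Adm (fun x => V x + W x) := by
  obtain ⟨L, h1, h2⟩ := hV
  obtain ⟨L', h1', h2'⟩ := hW
  refine ⟨L ++ L', ?_, ?_⟩
  · intro τ hτ
    rcases List.mem_append.mp hτ with h | h
    · exact h1 τ h
    · exact h1' τ h
  · intro x
    show V x + W x = _
    rw [h2, h2', List.map_append, List.sum_append]

theorem adm_sum {ι : Type} (s : Finset ι) (V : ι → E → ℝ) (h : ∀ i ∈ s, Adm (V i)) :
    Adm (fun x => ∑ i ∈ s, V i x) := by
  classical
  induction s using Finset.induction_on with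
  | empty => simpa using adm_zero
  | insert a s ha ih =>
    simp only [Finset.sum_insert ha]
    exact adm_add (h a (Finset.mem_insert_self a s))
      (ih fun i hi => h i (Finset.mem_insert_of_mem hi))

theorem adm_one_bump (i : Fin 3) (q : ℚ) (g : BumpCode) (hg : BumpCode.Valid g) :
    Adm (fun x => (q : ℝ) * (kappa⁻¹ * periodize (bump g) (x i))) := by
  refine adm_code q (-1) (fun j => if j = i then [g] else []) ?_ _ ?_
  · intro j g' hg'
    split_ifs at hg' with h
    · rw [List.mem_singleton] at hg'; rw [hg']; exact hg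
    · simp at hg'
  · intro x
    have : (∏ j, (((fun j => if j = i then [g] else []) j : List BumpCode).map
        fun g => periodize (bump g) (x j)).prod) = periodize (bump g) (x i) := by
      rw [Finset.prod_eq_single i]
      · simp
      · intro j _ hj; simp [hj]
      · simp
    rw [this]
    simp only [zpow_neg, zpow_one]
    ring

theorem adm_two_bump (i k : Fin 3) (hik : i ≠ k) (q : ℚ) (g g' : BumpCode)
    (hg : BumpCode.Valid g) (hg' : BumpCode.Valid g') :
    Adm (fun x => (q : ℝ) * ((kappa⁻¹ * periodize (bump g) (x i)) *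
      (kappa⁻¹ * periodize (bump g') (x k)))) := by
  refine adm_code q (-2) (fun j => if j = i then [g] else if j = k then [g'] else []) ?_ _ ?_
  · intro j g'' hg''
    split_ifs at hg'' with h h
    · rw [List.mem_singleton] at hg''; rw [hg'']; exact hg
    · rw [List.mem_singleton] at hg''; rw [hg'']; exact hg'
    · simp at hg''
  · intro x
    have : (∏ j, (((fun j => if j = i then [g] else if j = k then [g'] else []) j :
        List BumpCode).map fun g => periodize (bump g) (x j)).prod) =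
        periodize (bump g) (x i) * periodize (bump g') (x k) := by
      rw [Finset.prod_eq_mul i k hik]
      · simp [hik.symm]
      · intro j _ hj; simp [hj.1, hj.2]
      · simp
      · simp
    rw [this]
    have h2 : kappa ^ (-2 : ℤ) = kappa⁻¹ * kappa⁻¹ := by
      rw [zpow_neg]
      have : kappa ^ (2:ℤ) = kappa * kappa := by
        rw [zpow_ofNat]; ring
      rw [this, mul_inv]
    rw [h2]
    ring

namespace Enc

variable {S A : Type} [Fintype S] [Fintype A] (E : Enc S A)

theorem adm_ops (M : UQ S A) (j : Fin 8) : Adm ((E.ops M Bf Linf j).V) := by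
  have hl := lcode_valid
  have hb : ∀ c, BumpCode.Valid (bcode c E.eps) := fun c => bcode_valid E.eps_pos
  fin_cases j
  · show Adm (fun X => ∑ j : S × A × A, (E.wt M j : ℝ) * Bf (base E.K E.dS E.dA j) E.w (X 0))
    exact adm_sum _ _ fun j _ => adm_one_bump 0 _ _ (bcode_valid E.w_pos)
  · show Adm (fun X => ∑ j : S × A × A, ((E.dd M j : ℝ) * Bf (E.h j) E.eps (X 2)
        + (E.ee M j : ℝ) * (Linf (X 1) * Bf (E.h j) E.eps (X 2))))
    exact adm_sum _ _ fun j _ => adm_add (adm_one_bump 2 _ _ (hb _))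
      (adm_two_bump 1 2 (by decide) _ _ _ hl (hb _))
  · exact adm_one_bump 2 _ _ hl
  · exact adm_one_bump 0 _ _ hl
  · exact adm_one_bump 2 _ _ hl
  · exact adm_one_bump 2 _ _ hl
  · exact adm_one_bump 1 _ _ hl
  · exact adm_one_bump 2 _ _ hl

theorem indep_ops (M : UQ S A) (j : Fin 8) (x : Vale.Agent.P113.E) (s : ℝ) :
    (E.ops M Bf Linf j).V (Function.update x (E.ops M Bf Linf j).dir s) =
      (E.ops M Bf Linf j).V x := by
  fin_cases j
  · show (∑ j : S × A × A, (E.wt M j : ℝ) * Bf (base E.K E.dS E.dA j) E.w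
      ((Function.update x 2 s : Fin 3 → ℝ) 0)) = ∑ j : S × A × A, (E.wt M j : ℝ) *
      Bf (base E.K E.dS E.dA j) E.w (x 0)
    rw [Function.update_of_ne (by decide)]
  · show (∑ j : S × A × A, ((E.dd M j : ℝ) * Bf (E.h j) E.eps ((Function.update x 0 s : Fin 3 → ℝ) 2)
        + (E.ee M j : ℝ) * (Linf ((Function.update x 0 s : Fin 3 → ℝ) 1) *
          Bf (E.h j) E.eps ((Function.update x 0 s : Fin 3 → ℝ) 2)))) =
      ∑ j : S × A × A, ((E.dd M j : ℝ) * Bf (E.h j) E.eps (x 2)
        + (E.ee M j : ℝ) * (Linf (x 1) * Bf (E.h j) E.eps (x 2)))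
    rw [Function.update_of_ne (by decide), Function.update_of_ne (by decide)]
  · show _ * Linf ((Function.update x 0 s : Fin 3 → ℝ) 2) = _ * Linf (x 2)
    rw [Function.update_of_ne (by decide)]
  · show _ * Linf ((Function.update x 2 s : Fin 3 → ℝ) 0) = _ * Linf (x 0)
    rw [Function.update_of_ne (by decide)]
  · show _ * Linf ((Function.update x 0 s : Fin 3 → ℝ) 2) = _ * Linf (x 2)
    rw [Function.update_of_ne (by decide)]
  · show _ * Linf ((Function.update x 1 s : Fin 3 → ℝ) 2) = _ * Linf (x 2)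
    rw [Function.update_of_ne (by decide)]
  · show _ * Linf ((Function.update x 2 s : Fin 3 → ℝ) 1) = _ * Linf (x 1)
    rw [Function.update_of_ne (by decide)]
  · show _ * Linf ((Function.update x 1 s : Fin 3 → ℝ) 2) = _ * Linf (x 2)
    rw [Function.update_of_ne (by decide)]

end Enc

/-! ### The orbit -/

theorem ap_eq (o : ROp) (X : Fin 3 → ℝ) : o.ap X = X + Pi.single o.dir (o.V X) := by
  unfold ROp.ap
  ext i
  by_cases h : i = o.dir
  · subst h; simp
  · simp [h]

theorem orbit_idle (V : Fin 8 → E → ℝ) (dir : Fin 8 → Fin 3) (x0 y0 : ℝ) (n : ℕ) (h2 : 2 ≤ n)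
    (h : n % 16 < 8) : orbit V dir x0 y0 (n + 1) = orbit V dir x0 y0 n := by
  have h0 : n ≠ 0 := by omega
  have h1 : n ≠ 1 := by omega
  have h8 : ¬ 8 ≤ n % 16 := by omega
  show orbit V dir x0 y0 n + Pi.single (progDir dir n) (progV V x0 y0 n (orbit V dir x0 y0 n)) = _
  simp [progDir, progV, h0, h1, h8]

theorem orbit_idle' (V : Fin 8 → E → ℝ) (dir : Fin 8 → Fin 3) (x0 y0 : ℝ) (n : ℕ) (h2 : 2 ≤ n) :
    ∀ i : ℕ, n % 16 + i ≤ 8 → orbit V dir x0 y0 (n + i) = orbit V dir x0 y0 n := by
  intro i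
  induction i with
  | zero => intro _; rfl
  | succ i ih =>
    intro hi
    rw [← add_assoc, orbit_idle V dir x0 y0 (n + i) (by omega) (by omega)]
    exact ih (by omega)

theorem orbit_op (o : Fin 8 → ROp) (x0 y0 : ℝ) (n : ℕ) (j : Fin 8) (h : n % 16 = 8 + j.val) :
    orbit (fun j => (o j).V) (fun j => (o j).dir) x0 y0 (n + 1) =
      (o j).ap (orbit (fun j => (o j).V) (fun j => (o j).dir) x0 y0 n) := by
  have h0 : n ≠ 0 := by omega
  have h1 : n ≠ 1 := by omega
  have h8 : 8 ≤ n % 16 := by omega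
  have hj : (⟨n % 16 - 8, by omega⟩ : Fin 8) = j := Fin.ext (by simp [h])
  rw [ap_eq]
  show orbit _ _ x0 y0 n + Pi.single (progDir _ n) (progV _ x0 y0 n (orbit _ _ x0 y0 n)) = _
  simp only [progDir, progV, h0, h1, h8, if_false, dif_pos, hj]

theorem orbit_eight (V : Fin 8 → E → ℝ) (dir : Fin 8 → Fin 3) (x0 y0 : ℝ) :
    (∀ n ≤ 8, orbit V dir x0 y0 n 2 = 0) ∧ orbit V dir x0 y0 8 = ![x0, y0, 0] := by
  have h1 : orbit V dir x0 y0 1 = ![x0, 0, 0] := by
    show (0 : E) + Pi.single (progDir dir 0) (progV V x0 y0 0 0) = _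
    ext i
    fin_cases i <;> simp [progDir, progV]
  have h2 : orbit V dir x0 y0 2 = ![x0, y0, 0] := by
    show orbit V dir x0 y0 1 + Pi.single (progDir dir 1) (progV V x0 y0 1 _) = _
    rw [h1]
    ext i
    fin_cases i <;> simp [progDir, progV]
  have h3 : ∀ i ≤ 6, orbit V dir x0 y0 (2 + i) = ![x0, y0, 0] := by
    intro i hi
    rw [orbit_idle' V dir x0 y0 2 le_rfl i (by omega), h2]
  constructor
  · intro n hn
    rcases Nat.lt_or_ge n 2 with h | h
    · interval_cases n
      · rfl
      · rw [h1]; rfl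
    · obtain ⟨i, rfl⟩ := Nat.exists_eq_add_of_le h
      rw [h3 i (by omega)]; rfl
  · exact h3 6 le_rfl

theorem orbit_orb (o : Fin 8 → ROp) (x0 y0 : ℝ) (n : ℕ) :
    ∀ k ≤ 8, orbit (fun j => (o j).V) (fun j => (o j).dir) x0 y0 (16 * n + 8 + k) =
      orb o ![x0, y0, 0] (8 * n + k) := by
  induction n with
  | zero =>
    intro k hk
    induction k with
    | zero => exact (orbit_eight _ _ x0 y0).2
    | succ k ih =>
      have h1 := orbit_op o x0 y0 (16 * 0 + 8 + k) ⟨k, by omega⟩ (by simp; omega)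
      have h2 := orb_step o ![x0, y0, 0] 0 ⟨k, by omega⟩
      rw [← add_assoc, h1, ih (by omega), ← add_assoc, h2]
  | succ n ihn =>
    intro k hk
    induction k with
    | zero =>
      have h1 := ihn 8 le_rfl
      have h2 := orbit_idle' (fun j => (o j).V) (fun j => (o j).dir) x0 y0 (16 * n + 16)
        (by omega) 8 (by omega)
      have e1 : 16 * (n + 1) + 8 + 0 = 16 * n + 16 + 8 := by ring
      have e2 : 8 * (n + 1) + 0 = 8 * n + 8 := by ring
      rw [e1, h2, e2, ← h1]
    | succ k ih =>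
      have h1 := orbit_op o x0 y0 (16 * (n + 1) + 8 + k) ⟨k, by omega⟩ (by simp; omega)
      have h2 := orb_step o ![x0, y0, 0] (n + 1) ⟨k, by omega⟩
      rw [← add_assoc, h1, ih (by omega), ← add_assoc, h2]

theorem orbit_cover (o : Fin 8 → ROp) (x0 y0 : ℝ) (N : ℕ) :
    orbit (fun j => (o j).V) (fun j => (o j).dir) x0 y0 N 2 = 0 ∨
    ∃ n, ∃ k ≤ 8, orbit (fun j => (o j).V) (fun j => (o j).dir) x0 y0 N =
      orb o ![x0, y0, 0] (8 * n + k) := by
  rcases Nat.lt_or_ge N 8 with h | h
  · left; exact (orbit_eight _ _ x0 y0).1 N h.le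
  · right
    obtain ⟨r, rfl⟩ := Nat.exists_eq_add_of_le h
    have hr : r = 16 * (r / 16) + r % 16 := (Nat.div_add_mod r 16).symm
    have hr2 : r % 16 < 16 := Nat.mod_lt _ (by norm_num)
    rcases Nat.lt_or_ge (r % 16) 9 with h9 | h9
    · refine ⟨r / 16, r % 16, by omega, ?_⟩
      rw [← orbit_orb o x0 y0 (r / 16) (r % 16) (by omega)]
      congr 1
      omega
    · refine ⟨r / 16, 8, le_rfl, ?_⟩
      rw [← orbit_orb o x0 y0 (r / 16) 8 le_rfl]
      have h2 := orbit_idle' (fun j => (o j).V) (fun j => (o j).dir) x0 y0 (16 * (r / 16) + 8 + 8)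
        (by omega) (r % 16 - 8) (by omega)
      rw [← h2]
      congr 1
      omega

/-! ### The machine -/

/-- the canonical encoding for machines over `Fin m`, `Fin k` -/
noncomputable def finEnc (m k : ℕ) : Enc (Fin m) (Fin k) where
  dS := Fin.val
  dA := Fin.val
  idx := fun j => (Fintype.equivFin (Fin m × Fin k × Fin k) j).val
  N := Fintype.card (Fin m × Fin k × Fin k) + 1
  D := m + k + 1
  hS := Fin.val_injective
  hA := Fin.val_injective
  hidx := fun i j h => (Fintype.equivFin _).injective (Fin.ext h)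
  hN := fun j => by
    have := (Fintype.equivFin (Fin m × Fin k × Fin k) j).isLt
    omega
  hSD := fun s => by have := s.isLt; omega
  hAD := fun a => by have := a.isLt; omega
  hN1 := by omega
  hD1 := by omega

theorem tl_cast (m k : ℕ) (q : List (Fin k)) :
    ((tl ((finEnc m k).K : ℚ) (finEnc m k).dA q : ℚ) : ℝ) =
      wordVal (finEnc m k).K (q.map Fin.val) := by
  induction q with
  | nil => simp [tl, wordVal]
  | cons a q ih =>
    simp only [tl, List.map_cons, wordVal]
    push_cast
    rw [ih]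
    rfl

theorem x_cast (m k : ℕ) (s : Fin m) (q : List (Fin k)) :
    (((finEnc m k).x (s, q) : ℚ) : ℝ) = wordVal (finEnc m k).K ((s : ℕ) :: q.map Fin.val) := by
  unfold Enc.x vl
  push_cast
  rw [tl_cast]
  rfl

theorem y_cast (m k : ℕ) (s : Fin m) (q : List (Fin k)) :
    (((finEnc m k).y (s, q) : ℚ) : ℝ) = (((finEnc m k).K : ℝ) ^ (q.length + 1))⁻¹ := by
  unfold Enc.y sc
  push_cast
  rfl

theorem next_eq {m k : ℕ} (d : Fin m → Fin k → Fin k → Fin m × Fin k × Fin k × Fin k)
    (H : Fin m → Bool) : (UQ.mk d H).next = qstep d := by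
  funext c
  obtain ⟨s, q⟩ := c
  match q with
  | [] => rfl
  | [a] => rfl
  | a :: b :: q => rfl

theorem iterate_length {m k : ℕ} (M : UQ (Fin m) (Fin k)) (c : Fin m × List (Fin k))
    (hc : 2 ≤ c.2.length) (n : ℕ) : 2 ≤ (M.next^[n] c).2.length := by
  induction n with
  | zero => exact hc
  | succ n ih =>
    rw [Function.iterate_succ_apply']
    exact Enc.next_length M _ ih

theorem tracking {m k : ℕ} (M : UQ (Fin m) (Fin k)) (c : Fin m × List (Fin k))
    (hc : 2 ≤ c.2.length) (n : ℕ) (hn : ∀ i < n, M.halts (M.next^[i] c).1 = false) :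
    (∃ z : ℝ, |z| ≤ ((finEnc m k).eps : ℚ) ∧
      orb ((finEnc m k).ops M Bf Linf) ![(((finEnc m k).x c : ℚ) : ℝ),
        (((finEnc m k).y c : ℚ) : ℝ), 0] (8 * n) =
      ![(((finEnc m k).x (M.next^[n] c) : ℚ) : ℝ), (((finEnc m k).y (M.next^[n] c) : ℚ) : ℝ), z])
    ∧ ∀ i < n, ∀ r ≤ 8, inBox (orb ((finEnc m k).ops M Bf Linf) ![(((finEnc m k).x c : ℚ) : ℝ),
        (((finEnc m k).y c : ℚ) : ℝ), 0] (8 * i + r)) := by
  induction n with
  | zero =>
    refine ⟨⟨0, ?_, rfl⟩, ?_⟩
    · rw [abs_zero]; exact_mod_cast (finEnc m k).eps_pos.le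
    · intro i hi; omega
  | succ n ih =>
    obtain ⟨⟨z, hz, hY⟩, hb⟩ := ih fun i hi => hn i (by omega)
    obtain ⟨h1, z', hz', hY'⟩ := (finEnc m k).period M prof (M.next^[n] c)
      (iterate_length M c hc n) (hn n (by omega)) _ n z hz hY
    refine ⟨⟨z', hz', ?_⟩, ?_⟩
    · rw [Function.iterate_succ_apply']; exact hY'
    · intro i hi r hr
      rcases Nat.lt_or_ge i n with h | h
      · exact hb i h r hr
      · have : i = n := by omega
        subst this
        exact h1 r hr

/-- Part C. -/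
theorem partC : PartC := by
  intro m k d H
  set M : UQ (Fin m) (Fin k) := UQ.mk d H with hM
  set En := finEnc m k with hEn
  refine ⟨En.K, fun j => (En.ops M Bf Linf j).V, fun j => (En.ops M Bf Linf j).dir, ?_, ?_, ?_, ?_⟩
  · have := En.K_ge
    have : (1000:ℕ) ≤ En.K := by exact_mod_cast this
    omega
  · exact fun j => En.adm_ops M j
  · exact fun j x s => En.indep_ops M j x s
  · intro s0 q hq Y hYdef
    have hx := x_cast m k s0 q
    have hy := y_cast m k s0 q
    have hnext : qstep d = M.next := (next_eq d H).symm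
    rw [← hx, ← hy] at hYdef
    rw [hYdef, hnext]
    have heps : ((En.eps : ℚ) : ℝ) ≤ 1 / 32 := by
      have := cast_le' En.eps_le
      push_cast at this; exact this
    constructor
    · intro hex
      classical
      have hmin := Nat.find_spec hex
      have hlt : ∀ i < Nat.find hex, M.halts (M.next^[i] (s0, q)).1 = false := by
        intro i hi
        have := Nat.find_min hex hi
        simpa using this
      set n := Nat.find hex with hn
      obtain ⟨⟨z, hz, hY⟩, -⟩ := tracking M (s0, q) hq n hlt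
      refine ⟨16 * n + 8 + 1, ?_⟩
      have h1 := orbit_orb (En.ops M Bf Linf) ((En.x (s0, q) : ℚ) : ℝ) ((En.y (s0, q) : ℚ) : ℝ) n 1
        (by norm_num)
      rw [h1]
      have h2 := orb_step (En.ops M Bf Linf) ![((En.x (s0, q) : ℚ) : ℝ), ((En.y (s0, q) : ℚ) : ℝ), 0]
        n 0
      simp only [Fin.val_zero, add_zero] at h2
      rw [h2, hY, ap2 _ rfl]
      have hlen := iterate_length M (s0, q) hq n
      obtain ⟨s, q', hsq⟩ : ∃ s q', M.next^[n] (s0, q) = (s, q') := ⟨_, _, rfl⟩
      rw [hsq] at hlen hmin ⊢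
      match q', hlen with
      | a :: b :: q'', hlen =>
        rw [En.V0 M prof (s, a, b) (s, a :: b :: q'') q'' rfl _ rfl]
        have hw : En.wt M (s, a, b) = 1 / 2 := by
          unfold Enc.wt
          simp only at hmin ⊢
          rw [show M.halts s = true from hmin]
          simp
        rw [hw]
        have h3 : (![((En.x (s, a :: b :: q'') : ℚ) : ℝ), ((En.y (s, a :: b :: q'') : ℚ) : ℝ),
            z + ((1 / 2 : ℚ) : ℝ)] : Fin 3 → ℝ) 2 = z + 1 / 2 := by
          simp
        have h4 := abs_le.mp (hz.trans heps)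
        refine ⟨?_, ?_, ?_, ?_⟩
        · show |((En.x (s, a :: b :: q'') : ℚ) : ℝ)| ≤ 3 / 8
          have g1 : (0:ℝ) ≤ ((En.x (s, a :: b :: q'') : ℚ) : ℝ) := by
            exact_mod_cast En.x_nonneg _
          have g2 := cast_le' ((En.x_le (s, a :: b :: q'')).trans En.D_div_K)
          push_cast at g2
          rw [abs_of_nonneg g1]
          linarith
        · show |((En.y (s, a :: b :: q'') : ℚ) : ℝ)| ≤ 3 / 8
          have g1 : (0:ℝ) < ((En.y (s, a :: b :: q'') : ℚ) : ℝ) := by
            exact_mod_cast En.y_pos _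
          have g3 : 1 / (En.K : ℚ) ^ 3 ≤ 1 / 1000 := by
            apply one_div_le_one_div_of_le (by norm_num)
            calc (1000:ℚ) ≤ En.K := En.K_ge
              _ = (En.K:ℚ) ^ 1 := (pow_one _).symm
              _ ≤ (En.K:ℚ) ^ 3 := pow_le_pow_right₀ (by linarith [En.K_ge]) (by norm_num)
          have g2 := cast_le' ((En.y_le (s, a :: b :: q'') hlen).trans g3)
          push_cast at g2
          rw [abs_of_pos g1]
          linarith
        · rw [h3]; linarith [h4.1]
        · rw [h3]; linarith [h4.2]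
    · intro hall N
      rcases orbit_cover (En.ops M Bf Linf) ((En.x (s0, q) : ℚ) : ℝ) ((En.y (s0, q) : ℚ) : ℝ) N with
        h | ⟨n, r, hr, h⟩
      · rw [h]; norm_num
      · rw [h]
        exact (tracking M (s0, q) hq (n + 1) fun i _ => hall i).2 n (by omega) r hr 2

end Vale.Agent.P113.H109
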