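import Mathlib

/-!
Planar tracking: exact arithmetic of the eight shears simulating one step of a uniform queue
machine.
-/

namespace Vale.Agent.P113.H109

/-- A uniform queue machine: it pops two symbols and appends three, at every step. -/
structure UQ (S A : Type) where
  /-- transition function -/
  step3 : S → A → A → S × A × A × A
  /-- the halting states -/
  halts : S → Bool

variable {S A : Type}

/-- One step of a uniform queue machine (the queue must hold at least two symbols). -/
def UQ.next (M : UQ S A) : S × List A → S × List A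
  | (s, a :: b :: q) =>
      ((M.step3 s a b).1, q ++ [(M.step3 s a b).2.1, (M.step3 s a b).2.2.1, (M.step3 s a b).2.2.2])
  | c => c

/-- The number `0.a₁a₂…aₙ` in base `K`. -/
def tl (K : ℚ) (dA : A → ℕ) : List A → ℚ
  | [] => 0
  | a :: q => (dA a + tl K dA q) / K

/-- The number `0.s a₁a₂…aₙ` in base `K`. -/
def vl (K : ℚ) (dS : S → ℕ) (dA : A → ℕ) (s : S) (q : List A) : ℚ := (dS s + tl K dA q) / K

/-- The scale coordinate: `K` to the power minus the number of digits. -/
def sc (K : ℚ) (q : List A) : ℚ := (K ^ (q.length + 1))⁻¹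

theorem tl_nonneg {K : ℚ} (hK : 0 < K) (dA : A → ℕ) (q : List A) : 0 ≤ tl K dA q := by
  induction q with
  | nil => simp [tl]
  | cons a q ih => unfold tl; positivity

theorem tl_le {K D : ℚ} (hK : 2 ≤ K) (dA : A → ℕ) (hD : ∀ a, (dA a : ℚ) ≤ D) (hD0 : 0 ≤ D)
    (q : List A) : tl K dA q ≤ 2 * D / K := by
  induction q with
  | nil => simp only [tl]; positivity
  | cons a q ih =>
    unfold tl
    have h1 := hD a
    have h2 : 2 * D / K ≤ D := by
      rw [div_le_iff₀ (by linarith)]; nlinarith
    apply div_le_div_of_nonneg_right _ (by linarith)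
    linarith

theorem tl_append {K : ℚ} (hK : 0 < K) (dA : A → ℕ) (q r : List A) :
    tl K dA (q ++ r) = tl K dA q + (K ^ q.length)⁻¹ * tl K dA r := by
  induction q with
  | nil => simp [tl]
  | cons a q ih =>
    simp only [List.cons_append, tl, ih, List.length_cons, pow_succ]
    field_simp
    ring

/-- The value of the first three digits. -/
def base (K : ℚ) (dS : S → ℕ) (dA : A → ℕ) (j : S × A × A) : ℚ :=
  (dS j.1 + (dA j.2.1 + dA j.2.2 / K) / K) / K

theorem vl_eq_base {K : ℚ} (hK : 0 < K) (dS : S → ℕ) (dA : A → ℕ) (s : S) (a b : A) (q : List A) :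
    vl K dS dA s (a :: b :: q) = base K dS dA (s, a, b) + tl K dA q / K ^ 3 := by
  simp only [vl, base, tl]
  field_simp
  ring

/-- The arithmetic identity behind one step of the machine. -/
theorem step_identity {K : ℚ} (hK : 0 < K) (dS : S → ℕ) (dA : A → ℕ) (s s' : S) (a b : A)
    (q : List A) (c1 c2 c3 : A) :
    K ^ 2 * (vl K dS dA s (a :: b :: q) + (-base K dS dA (s, a, b) + dS s' / K ^ 3)
      + tl K dA [c1, c2, c3] * sc K (a :: b :: q)) = vl K dS dA s' (q ++ [c1, c2, c3]) := by
  rw [vl_eq_base hK]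
  unfold vl
  rw [tl_append hK]
  simp only [sc, List.length_cons]
  have : K ≠ 0 := hK.ne'
  field_simp
  ring

theorem sc_step {K : ℚ} (hK : 0 < K) (a b : A) (q : List A) (c1 c2 c3 : A) :
    sc K (a :: b :: q) / K = sc K (q ++ [c1, c2, c3]) := by
  simp only [sc, List.length_cons, List.length_append, List.length_nil]
  have : K ≠ 0 := hK.ne'
  field_simp
  ring

/-- distinct triples of digits have bases at distance at least `K⁻³`. -/
theorem base_sep {K : ℕ} (hK : 0 < K) (dS : S → ℕ) (dA : A → ℕ) (hS : Function.Injective dS)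
    (hA : Function.Injective dA) (hKA : ∀ a, dA a < K) (j j' : S × A × A) (hj : j ≠ j') :
    ((K:ℚ) ^ 3)⁻¹ ≤ |base K dS dA j - base K dS dA j'| := by
  obtain ⟨s, a, b⟩ := j
  obtain ⟨s', a', b'⟩ := j'
  have hK' : (0:ℚ) < K := by exact_mod_cast hK
  have h1 : base (K:ℚ) dS dA (s, a, b) - base (K:ℚ) dS dA (s', a', b') =
      (((((dS s * K + dA a) * K + dA b : ℕ) : ℤ) - (((dS s' * K + dA a') * K + dA b' : ℕ) : ℤ) : ℤ) : ℚ)
        * ((K:ℚ) ^ 3)⁻¹ := by
    simp only [base]
    push_cast
    field_simp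
    ring
  rw [h1, abs_mul, abs_of_pos (by positivity : (0:ℚ) < ((K:ℚ) ^ 3)⁻¹)]
  have h2 : (((dS s * K + dA a) * K + dA b : ℕ) : ℤ) - (((dS s' * K + dA a') * K + dA b' : ℕ) : ℤ) ≠ 0 := by
    intro h
    have h3 : (dS s * K + dA a) * K + dA b = (dS s' * K + dA a') * K + dA b' := by omega
    have hb : dA b = dA b' := by
      have := congrArg (· % K) h3
      simpa [Nat.add_mod, Nat.mod_eq_of_lt (hKA b), Nat.mod_eq_of_lt (hKA b')] using this
    have h4 : dS s * K + dA a = dS s' * K + dA a' := by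
      rw [hb] at h3
      exact Nat.eq_of_mul_eq_mul_right hK (by omega)
    have ha : dA a = dA a' := by
      have := congrArg (· % K) h4
      simpa [Nat.add_mod, Nat.mod_eq_of_lt (hKA a), Nat.mod_eq_of_lt (hKA a')] using this
    have h5 : dS s = dS s' := by
      rw [ha] at h4
      exact Nat.eq_of_mul_eq_mul_right hK (by omega)
    exact hj (by rw [hS h5, hA ha, hA hb])
  have h6 : (1:ℤ) ≤ |(((dS s * K + dA a) * K + dA b : ℕ) : ℤ) - (((dS s' * K + dA a') * K + dA b' : ℕ) : ℤ)| :=
    Int.one_le_abs h2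
  have h7 : (1:ℚ) ≤ |(((((dS s * K + dA a) * K + dA b : ℕ) : ℤ) - (((dS s' * K + dA a') * K + dA b' : ℕ) : ℤ) : ℤ) : ℚ)| := by
    exact_mod_cast h6
  have h8 : (0:ℚ) < ((K:ℚ) ^ 3)⁻¹ := by positivity
  nlinarith

end Vale.Agent.P113.H109
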