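import Vale.Agent.P113.H109.Planar

/-!
Planar tracking, second part: the eight shears as maps of space.
-/

namespace Vale.Agent.P113.H109

/-- A shear: direction and displacement profile. -/
structure ROp where
  /-- direction of the shear -/
  dir : Fin 3
  /-- the displacement -/
  V : (Fin 3 → ℝ) → ℝ

/-- Apply a shear to a point. -/
def ROp.ap (o : ROp) (X : Fin 3 → ℝ) : Fin 3 → ℝ := Function.update X o.dir (X o.dir + o.V X)

/-- The data of the encoding of a uniform queue machine. -/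
structure Enc (S A : Type) where
  /-- digits of the states -/
  dS : S → ℕ
  /-- digits of the symbols -/
  dA : A → ℕ
  /-- index of a triple -/
  idx : S × A × A → ℕ
  /-- bound on the indices -/
  N : ℕ
  /-- bound on the digits -/
  D : ℕ
  hS : Function.Injective dS
  hA : Function.Injective dA
  hidx : Function.Injective idx
  hN : ∀ j, idx j ≤ N
  hSD : ∀ s, dS s ≤ D
  hAD : ∀ a, dA a ≤ D
  hN1 : 1 ≤ N
  hD1 : 1 ≤ D

namespace Enc

variable {S A : Type} (E : Enc S A)

/-- the base -/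
def K : ℕ := 1000 * E.N * E.D
/-- the precision -/
def eps : ℚ := 1 / (32 * E.N)
/-- the slope -/
def p : ℚ := 6 * E.D / E.eps
/-- the other slope -/
def r : ℚ := ((E.K : ℚ) ^ 2 - 1) / E.p
/-- the slab of a triple -/
def h (j : S × A × A) : ℚ := 4 * E.eps * E.idx j
/-- the half width of the digit cells -/
def w : ℚ := 1 / (4 * (E.K : ℚ) ^ 3)

/-- encoded first coordinate -/
def x (c : S × List A) : ℚ := vl E.K E.dS E.dA c.1 c.2
/-- encoded second coordinate -/
def y (c : S × List A) : ℚ := sc E.K c.2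

theorem eps_pos : 0 < E.eps := by
  have := E.hN1
  unfold eps
  have h : (1:ℚ) ≤ E.N := by exact_mod_cast this
  positivity

theorem K_ge : (1000 : ℚ) ≤ E.K := by
  have h1 : (1:ℚ) ≤ E.N := by exact_mod_cast E.hN1
  have h2 : (1:ℚ) ≤ E.D := by exact_mod_cast E.hD1
  unfold K; push_cast; nlinarith

theorem K_geN : (1000 : ℚ) * E.N ≤ E.K := by
  have h1 : (1:ℚ) ≤ E.N := by exact_mod_cast E.hN1
  have h2 : (1:ℚ) ≤ E.D := by exact_mod_cast E.hD1
  unfold K; push_cast; nlinarith

theorem K_geD : (1000 : ℚ) * E.D ≤ E.K := by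
  have h1 : (1:ℚ) ≤ E.N := by exact_mod_cast E.hN1
  have h2 : (1:ℚ) ≤ E.D := by exact_mod_cast E.hD1
  unfold K; push_cast; nlinarith

theorem K_geND : (1000 : ℚ) * (E.N * E.D) ≤ E.K := by
  unfold K; push_cast; nlinarith

theorem K_pos : (0:ℚ) < E.K := by linarith [E.K_ge]

theorem Kn_pos : 0 < E.K := by exact_mod_cast E.K_pos

theorem w_pos : 0 < E.w := by
  have := E.K_pos
  unfold w; positivity

theorem w_le : E.w ≤ 1 / 8 := by
  have h1 := E.K_ge
  unfold w
  have h2 : (1000:ℚ) ^ 3 ≤ (E.K : ℚ) ^ 3 := by gcongr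
  have h3 : (8:ℚ) ≤ 4 * (E.K:ℚ)^3 := by nlinarith
  exact one_div_le_one_div_of_le (by norm_num) h3

theorem eps_le : E.eps ≤ 1 / 32 := by
  have h1 : (1:ℚ) ≤ E.N := by exact_mod_cast E.hN1
  unfold eps
  exact one_div_le_one_div_of_le (by norm_num) (by linarith)

theorem eps_K : (1:ℚ) / E.K ≤ E.eps / 30 := by
  have h1 := E.K_geN
  have h0 : (1:ℚ) ≤ E.N := by exact_mod_cast E.hN1
  unfold eps
  rw [div_div]
  exact one_div_le_one_div_of_le (by positivity) (by linarith)

theorem h_nonneg (j : S × A × A) : 0 ≤ E.h j := by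
  have := E.eps_pos
  unfold h; positivity

theorem h_le (j : S × A × A) : E.h j ≤ 1 / 8 := by
  have h1 : (E.idx j : ℚ) ≤ E.N := by exact_mod_cast E.hN j
  have h0 : (1:ℚ) ≤ E.N := by exact_mod_cast E.hN1
  have h2 : E.eps * E.N = 1 / 32 := by
    unfold eps
    field_simp
  have := E.eps_pos
  unfold h
  nlinarith

theorem h_sep (j j' : S × A × A) (hj : j ≠ j') : 4 * E.eps ≤ |E.h j - E.h j'| := by
  have h1 : (E.idx j : ℤ) - E.idx j' ≠ 0 := by
    intro h
    exact hj (E.hidx (by omega))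
  have h2 : (1:ℤ) ≤ |(E.idx j : ℤ) - E.idx j'| := Int.one_le_abs h1
  have h3 : (1:ℚ) ≤ |(E.idx j : ℚ) - E.idx j'| := by exact_mod_cast h2
  have h4 : E.h j - E.h j' = 4 * E.eps * ((E.idx j : ℚ) - E.idx j') := by
    unfold h; ring
  have := E.eps_pos
  rw [h4, abs_mul, abs_of_pos (by positivity : (0:ℚ) < 4 * E.eps)]
  nlinarith

theorem p_pos : 0 < E.p := by
  have := E.eps_pos
  have h2 : (1:ℚ) ≤ E.D := by exact_mod_cast E.hD1
  unfold p; positivity

theorem p_eq : E.p = 192 * (E.N * E.D) := by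
  have h0 : (1:ℚ) ≤ E.N := by exact_mod_cast E.hN1
  unfold p eps
  field_simp
  ring

theorem p_le : E.p ≤ E.K := by
  rw [p_eq]
  have := E.K_geND
  have h1 : (1:ℚ) ≤ E.N := by exact_mod_cast E.hN1
  have h2 : (1:ℚ) ≤ E.D := by exact_mod_cast E.hD1
  have h3 : (0:ℚ) ≤ E.N * E.D := by positivity
  linarith

theorem x_nonneg (c : S × List A) : 0 ≤ E.x c := by
  have h2 := tl_nonneg E.K_pos E.dA c.2
  have := E.K_pos
  unfold x vl
  positivity

theorem x_le (c : S × List A) : E.x c ≤ 2 * E.D / E.K := by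
  have h1 : (E.dS c.1 : ℚ) ≤ E.D := by exact_mod_cast E.hSD c.1
  have h2 := tl_le (K := (E.K:ℚ)) (D := (E.D:ℚ)) (by linarith [E.K_ge]) E.dA
    (fun a => by exact_mod_cast E.hAD a) (by positivity) c.2
  have h3 := E.K_pos
  have h4 : 2 * (E.D:ℚ) / E.K ≤ E.D := by
    rw [div_le_iff₀ h3]
    have := E.K_ge
    have h5 : (1:ℚ) ≤ E.D := by exact_mod_cast E.hD1
    nlinarith
  unfold x vl
  apply div_le_div_of_nonneg_right _ h3.le
  linarith

theorem D_div_K : 2 * (E.D:ℚ) / E.K ≤ 1 / 500 := by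
  rw [div_le_iff₀ E.K_pos]
  have := E.K_geD
  linarith

theorem y_pos (c : S × List A) : 0 < E.y c := by
  have := E.K_pos
  unfold y sc; positivity

theorem y_le (c : S × List A) (hc : 2 ≤ c.2.length) : E.y c ≤ 1 / (E.K : ℚ) ^ 3 := by
  unfold y sc
  rw [inv_eq_one_div]
  apply one_div_le_one_div_of_le (by have := E.K_pos; positivity)
  apply pow_le_pow_right₀ (by linarith [E.K_ge])
  omega

end Enc

end Vale.Agent.P113.H109
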