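import Vale.Agent.P113.H109.Planar2

/-!
Planar tracking, third part: the orbit of an encoded configuration under the eight shears.
-/

namespace Vale.Agent.P113.H109

/-- The properties of the profile functions used by the tracking: `B c w` is a plateau around `c`
of half width `w`, and `Lin` is linear near zero. -/
structure Prof (B : ℚ → ℚ → ℝ → ℝ) (Lin : ℝ → ℝ) : Prop where
  one : ∀ (c w : ℚ) (s : ℝ), 0 < w → w ≤ 1 / 8 → |s - c| ≤ w → B c w s = 1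
  zero : ∀ (c w : ℚ) (s : ℝ), 0 < w → w ≤ 1 / 8 → 2 * w ≤ |s - c| → |s - c| ≤ 1 / 2 → B c w s = 0
  lin : ∀ s : ℝ, |s| ≤ 3 / 8 → Lin s = s

namespace Enc

variable {S A : Type} [Fintype S] [Fintype A] (E : Enc S A)

/-- The weight of a triple in the first shear. -/
def wt (M : UQ S A) (j : S × A × A) : ℚ := if M.halts j.1 then 1 / 2 else E.h j

/-- constant part of the second shear -/
def dd (M : UQ S A) (j : S × A × A) : ℚ :=
  -base E.K E.dS E.dA j + E.dS (M.step3 j.1 j.2.1 j.2.2).1 / (E.K : ℚ) ^ 3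

/-- linear part of the second shear -/
def ee (M : UQ S A) (j : S × A × A) : ℚ :=
  tl E.K E.dA [(M.step3 j.1 j.2.1 j.2.2).2.1, (M.step3 j.1 j.2.1 j.2.2).2.2.1,
    (M.step3 j.1 j.2.1 j.2.2).2.2.2]

/-- The eight shears. -/
def ops (M : UQ S A) (B : ℚ → ℚ → ℝ → ℝ) (Lin : ℝ → ℝ) : Fin 8 → ROp :=
  ![⟨2, fun X => ∑ j : S × A × A, (E.wt M j : ℝ) * B (base E.K E.dS E.dA j) E.w (X 0)⟩,
    ⟨0, fun X => ∑ j : S × A × A, ((E.dd M j : ℝ) * B (E.h j) E.eps (X 2)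
        + (E.ee M j : ℝ) * (Lin (X 1) * B (E.h j) E.eps (X 2)))⟩,
    ⟨0, fun X => ((-(E.p / (E.K:ℚ) ^ 2) : ℚ) : ℝ) * Lin (X 2)⟩,
    ⟨2, fun X => (E.r : ℝ) * Lin (X 0)⟩,
    ⟨0, fun X => (E.p : ℝ) * Lin (X 2)⟩,
    ⟨1, fun X => ((-(E.K:ℚ) : ℚ) : ℝ) * Lin (X 2)⟩,
    ⟨2, fun X => ((1 / (E.K:ℚ) - 1 : ℚ) : ℝ) * Lin (X 1)⟩,
    ⟨1, fun X => ((1:ℚ) : ℝ) * Lin (X 2)⟩]

theorem cell_x (j : S × A × A) (c : S × List A) (q : List A)
    (hc : c = (j.1, j.2.1 :: j.2.2 :: q)) :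
    |((E.x c : ℚ) : ℝ) - (base E.K E.dS E.dA j : ℚ)| ≤ (E.w : ℚ) ∧
    ∀ j', j' ≠ j → 2 * ((E.w : ℚ) : ℝ) ≤ |((E.x c : ℚ) : ℝ) - (base E.K E.dS E.dA j' : ℚ)| ∧
      |((E.x c : ℚ) : ℝ) - (base E.K E.dS E.dA j' : ℚ)| ≤ 1 / 2 := by
  obtain ⟨s, a, b⟩ := j
  subst hc
  have hK := E.K_pos
  have hx : E.x (s, a :: b :: q) = base E.K E.dS E.dA (s, a, b) + tl E.K E.dA q / (E.K:ℚ) ^ 3 :=
    vl_eq_base hK E.dS E.dA s a b q
  have ht0 := tl_nonneg hK E.dA q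
  have ht1 := tl_le (K := (E.K:ℚ)) (D := (E.D:ℚ)) (by linarith [E.K_ge]) E.dA
    (fun a => by exact_mod_cast E.hAD a) (by positivity) q
  have hDK := E.D_div_K
  have hK3 : (0:ℚ) < (E.K:ℚ) ^ 3 := by positivity
  have hw : E.w = (1 / 4) * (1 / (E.K:ℚ) ^ 3) := by unfold w; field_simp
  have ht2 : 0 ≤ tl E.K E.dA q / (E.K:ℚ) ^ 3 := by positivity
  have ht3 : tl E.K E.dA q / (E.K:ℚ) ^ 3 ≤ (1 / 4) * (1 / (E.K:ℚ) ^ 3) := by
    rw [div_le_iff₀ hK3]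
    field_simp
    linarith
  have hbase : ∀ j : S × A × A, 0 ≤ base E.K E.dS E.dA j ∧ base E.K E.dS E.dA j ≤ 1 / 4 := by
    intro j
    obtain ⟨s, a, b⟩ := j
    have h1 : (E.dS s : ℚ) ≤ E.D := by exact_mod_cast E.hSD s
    have h2 : (E.dA a : ℚ) ≤ E.D := by exact_mod_cast E.hAD a
    have h3 : (E.dA b : ℚ) ≤ E.D := by exact_mod_cast E.hAD b
    have hD1 : (1:ℚ) ≤ E.D := by exact_mod_cast E.hD1
    have hKD := E.K_geD
    constructor
    · unfold base; positivity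
    · unfold base
      rw [div_le_iff₀ hK]
      have h4 : (E.dA b : ℚ) / E.K ≤ 1 := by
        rw [div_le_iff₀ hK]; linarith
      have h5 : ((E.dA a : ℚ) + E.dA b / E.K) / E.K ≤ 1 := by
        rw [div_le_iff₀ hK]; linarith
      simp only
      linarith
  constructor
  · rw [← Rat.cast_sub, ← Rat.cast_abs, Rat.cast_le, hx, add_sub_cancel_left, abs_of_nonneg ht2, hw]
    exact ht3
  · intro j' hj'
    have hsep := base_sep E.Kn_pos E.dS E.dA E.hS E.hA (fun a => by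
      have h1 := E.hAD a
      have h2 := E.K_geD
      have hD1 : (1:ℚ) ≤ E.D := by exact_mod_cast E.hD1
      have h3 : (E.dA a : ℚ) ≤ E.D := by exact_mod_cast h1
      have h4 : (E.dA a : ℚ) < E.K := by linarith
      exact_mod_cast h4) j' (s, a, b) hj'
    constructor
    · have : 2 * E.w ≤ |E.x (s, a :: b :: q) - base E.K E.dS E.dA j'| := by
        have h1 : E.x (s, a :: b :: q) - base E.K E.dS E.dA j' =
          tl E.K E.dA q / (E.K:ℚ) ^ 3 - (base E.K E.dS E.dA j' - base E.K E.dS E.dA (s, a, b)) := by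
          rw [hx]; ring
        have h2 : |base E.K E.dS E.dA j' - base E.K E.dS E.dA (s, a, b)| ≤
            |tl E.K E.dA q / (E.K:ℚ) ^ 3| + |E.x (s, a :: b :: q) - base E.K E.dS E.dA j'| := by
          rw [h1]
          have := abs_sub (tl E.K E.dA q / (E.K:ℚ) ^ 3) (tl E.K E.dA q / (E.K:ℚ) ^ 3 -
            (base E.K E.dS E.dA j' - base E.K E.dS E.dA (s, a, b)))
          simpa using this
        rw [abs_of_nonneg ht2] at h2
        rw [hw]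
        rw [← one_div] at hsep
        linarith
      have h3 : ((2 * E.w : ℚ) : ℝ) ≤ ((|E.x (s, a :: b :: q) - base E.K E.dS E.dA j'| : ℚ) : ℝ) := by
        exact_mod_cast this
      push_cast at h3
      exact h3
    · rw [← Rat.cast_sub, ← Rat.cast_abs]
      have h1 := E.x_nonneg (s, a :: b :: q)
      have h2 := E.x_le (s, a :: b :: q)
      have h3 := hbase j'
      have : |E.x (s, a :: b :: q) - base E.K E.dS E.dA j'| ≤ 1 / 2 := by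
        rw [abs_le]; constructor <;> linarith
      have h4 : ((|E.x (s, a :: b :: q) - base E.K E.dS E.dA j'| : ℚ) : ℝ) ≤ ((1 / 2 : ℚ) : ℝ) := by
        exact_mod_cast this
      simpa using h4

theorem cell_z (j : S × A × A) (z : ℝ) (hz : |z - (E.h j : ℚ)| ≤ (E.eps : ℚ)) :
    ∀ j', j' ≠ j → 2 * ((E.eps : ℚ) : ℝ) ≤ |z - (E.h j' : ℚ)| ∧ |z - (E.h j' : ℚ)| ≤ 1 / 2 := by
  intro j' hj'
  have hsep := E.h_sep j' j hj'
  have hsep' : ((4 * E.eps : ℚ) : ℝ) ≤ ((|E.h j' - E.h j| : ℚ) : ℝ) := by exact_mod_cast hsep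
  push_cast at hsep'
  have he : (0:ℝ) < (E.eps : ℚ) := by exact_mod_cast E.eps_pos
  have he' : ((E.eps : ℚ) : ℝ) ≤ 1 / 32 := by
    have := E.eps_le
    have h : ((E.eps : ℚ) : ℝ) ≤ ((1 / 32 : ℚ) : ℝ) := by exact_mod_cast this
    simpa using h
  have h0 : (0:ℝ) ≤ (E.h j : ℚ) := by exact_mod_cast E.h_nonneg j
  have h0' : (0:ℝ) ≤ (E.h j' : ℚ) := by exact_mod_cast E.h_nonneg j'
  have h1 : ((E.h j : ℚ) : ℝ) ≤ 1 / 8 := by
    have h : ((E.h j : ℚ) : ℝ) ≤ ((1 / 8 : ℚ) : ℝ) := by exact_mod_cast E.h_le j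
    simpa using h
  have h1' : ((E.h j' : ℚ) : ℝ) ≤ 1 / 8 := by
    have h : ((E.h j' : ℚ) : ℝ) ≤ ((1 / 8 : ℚ) : ℝ) := by exact_mod_cast E.h_le j'
    simpa using h
  constructor
  · have h3 : |((E.h j' : ℚ) : ℝ) - (E.h j : ℚ)| ≤ |z - (E.h j : ℚ)| + |z - (E.h j' : ℚ)| := by
      have := abs_sub (z - ((E.h j : ℚ):ℝ)) (z - ((E.h j' : ℚ) : ℝ))
      have h4 : z - ((E.h j : ℚ):ℝ) - (z - ((E.h j' : ℚ) : ℝ)) = ((E.h j' : ℚ) : ℝ) - (E.h j : ℚ) := by ring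
      rwa [h4] at this
    linarith
  · rw [abs_le] at hz ⊢
    constructor <;> linarith

variable {B : ℚ → ℚ → ℝ → ℝ} {Lin : ℝ → ℝ}

theorem V0 (M : UQ S A) (P : Prof B Lin) (j : S × A × A) (c : S × List A) (q : List A)
    (hc : c = (j.1, j.2.1 :: j.2.2 :: q)) (X : Fin 3 → ℝ) (hX : X 0 = (E.x c : ℚ)) :
    (E.ops M B Lin 0).V X = (E.wt M j : ℚ) := by
  obtain ⟨h1, h2⟩ := E.cell_x j c q hc
  show (∑ j : S × A × A, (E.wt M j : ℝ) * B (base E.K E.dS E.dA j) E.w (X 0)) = _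
  rw [Finset.sum_eq_single j]
  · rw [hX, P.one _ _ _ E.w_pos E.w_le h1, mul_one]
  · intro j' _ hj'
    rw [hX, P.zero _ _ _ E.w_pos E.w_le (h2 j' hj').1 (h2 j' hj').2, mul_zero]
  · intro h; exact absurd (Finset.mem_univ j) h

theorem V1 (M : UQ S A) (P : Prof B Lin) (j : S × A × A) (X : Fin 3 → ℝ) (hy : |X 1| ≤ 3 / 8)
    (hz : |X 2 - (E.h j : ℚ)| ≤ (E.eps : ℚ)) :
    (E.ops M B Lin 1).V X = (E.dd M j : ℚ) + (E.ee M j : ℚ) * X 1 := by
  have h2 := E.cell_z j (X 2) hz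
  have hel : E.eps ≤ 1 / 8 := by linarith [E.eps_le]
  show (∑ j : S × A × A, ((E.dd M j : ℝ) * B (E.h j) E.eps (X 2)
        + (E.ee M j : ℝ) * (Lin (X 1) * B (E.h j) E.eps (X 2)))) = _
  rw [Finset.sum_eq_single j]
  · rw [P.one _ _ _ E.eps_pos hel hz, P.lin _ hy, mul_one, mul_one]
  · intro j' _ hj'
    rw [P.zero _ _ _ E.eps_pos hel (h2 j' hj').1 (h2 j' hj').2]
    simp
  · intro h; exact absurd (Finset.mem_univ j) h

end Enc

end Vale.Agent.P113.H109
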